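import Vale.Agent.P305F.Mcf
import Vale.Agent.P305F.SamFam

/-!
# Laminar congestion approximators: definitions and the statements of the blocks
-/

namespace Vale.Agent.P305T

open Vale.Agent.P305E Vale.Agent.P305S Finset

open Classical in
/-- The indicator of a set. -/
noncomputable def ind (T : ℕ → Prop) (v : ℕ) : ℝ := if T v then 1 else 0

/-- The capacity of the ends of edges in `T`. -/
noncomputable def vol (E : List Edge) (T : ℕ → Prop) : ℝ := wsum E fun x y => ind T x + ind T y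

/-- The sum of `β` over the vertices of `T` below `n`. -/
noncomputable def sm (n : ℕ) (β : ℕ → ℝ) (T : ℕ → Prop) : ℝ := ∑ v ∈ range n, ind T v * β v

/-- The weight of a set. -/
noncomputable def wt (n : ℕ) (d : ℕ → ℕ) (T : ℕ → Prop) : ℝ := sm n (fun v => d v) T

/-- The edges between different classes. -/
def bd (p : ℕ → ℕ) (E : List Edge) : List Edge := E.filter fun e => p e.1 ≠ p e.2.1

/-- The edges of the class `a`. -/
def pcE (p : ℕ → ℕ) (a : ℕ) (E : List Edge) : List Edge := E.filter fun e => p e.1 = a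

/-- The ends are below `n`. -/
def Ends (n : ℕ) (E : List Edge) : Prop := ∀ e ∈ E, e.1 < n ∧ e.2.1 < n

/-- All edges lie inside the classes. -/
def Ins (p : ℕ → ℕ) (E : List Edge) : Prop := ∀ e ∈ E, p e.1 = p e.2.1

/-- Sizes and capacities. -/
structure EP (b n : ℕ) (E : List Edge) : Prop where
  len : n + E.length ≤ 2 ^ b
  each : ∀ e ∈ E, e.1 < n ∧ e.2.1 < n ∧ 1 ≤ e.2.2 ∧ e.2.2 < 2 ^ b

/-- The classes of the labellings `ls` form a congestion approximator of quality `q`. -/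
def CA (n : ℕ) (E : List Edge) (ls : List (ℕ → ℕ)) (q : ℝ) : Prop :=
  ∀ β : ℕ → ℝ, (∀ l ∈ ls, ∀ a, |sm n β fun v => l v = a| ≤ cut E fun v => l v = a) →
    ∀ S, |sm n β S| ≤ q * cut E S

/-- Nested labellings by representatives, from the singletons up to classes without boundary. -/
structure Lam (n : ℕ) (E : List Edge) (ls : List (ℕ → ℕ)) : Prop where
  ne : ls ≠ []
  rep : ∀ l ∈ ls, ∀ v < n, l v < n ∧ l (l v) = l v
  nest : ls.Pairwise fun l l' => ∀ v < n, ∀ w < n, l v = l w → l' v = l' w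
  head : ∀ l ∈ ls.head?, ∀ v < n, l v = v
  top : ∀ l ∈ ls.getLast?, Ins l E

/-- The boundaries of `p` and `p'` mix in the classes of `p'`. -/
def Mix (E : List Edge) (p p' : ℕ → ℕ) (α : ℝ) : Prop :=
  ∀ S : ℕ → Prop, ∃ σ : ℕ → Prop, vol (bd p E) (fun v => S v ↔ σ (p' v)) +
    vol (bd p' E) (fun v => S v ↔ σ (p' v)) ≤ α * cut E S

/-- The boundary of `p'` can be sent to half of the boundary of `p`. -/
def Rt (E : List Edge) (p p' : ℕ → ℕ) (β : ℝ) : Prop :=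
  ∀ T, vol (bd p' E) T ≤ vol (bd p E) T / 2 + β * cut E T

/-- The result is good up to probability `ε`, in expected time `T`. -/
def Sp {β : Type} (B : ℕ) (m : M β) (P : β → Prop) (T ε : ℝ) : Prop :=
  ∀ (F : β → ℕ → ℝ) (C₀ τ : ℝ), 0 ≤ τ → 0 ≤ C₀ → (∀ x t, F x t ≤ 1) →
    (∀ x t, P x → F x t ≤ C₀ + τ * t) → wp B m F 1 ≤ C₀ + τ * T + ε

/-- An almost-linear randomized program; `Post b (g b) x` describes the good results. -/
structure Box {α β : Type} [Rep α] [Rep β] (Pre : ℕ → α → Prop) (sz : α → ℕ)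
    (Post : ℕ → ℕ → α → β → Prop) (f : ℕ → α → M β) (c : ℕ) (g : ℕ → ℕ) : Prop where
  impl : Impl fun p : ℕ × α => f p.1 p.2
  sub : ∀ a, Sub fun N => g (a * Nat.size N + a)
  mono : Monotone g
  spec : ∀ B b x, Pre b x → 2 ^ (c * (b + 1)) ≤ B →
    Sp B (f b x) (Post b (g b) x) (((sz x + 1) * g b : ℕ) : ℝ) (1 / 2 ^ b)

/-- **The goal**: input `(n, E)`. -/
def TREE : Prop := ∃ f c g, Box (fun b (x : ℕ × List Edge) => EP b x.1 x.2)
  (fun x => x.1 + x.2.length) (fun b q x (ls : List (Arr ℕ)) => ls.length ≤ 2 * b + 4 ∧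
    Lam x.1 x.2 (ls.map Arr.get) ∧ CA x.1 x.2 (ls.map Arr.get) q) f c g

/-- **T0**: the theorem of Li, Rao and Wang. -/
def LRW : Prop := ∀ (n : ℕ) (E : List Edge) (p r : ℕ → ℕ → ℕ) (L : ℕ) (α β : ℝ), Ends n E →
  0 ≤ α → 1 ≤ β → (∀ v < n, p 0 v = v) →
  (∀ i < L, Mix E (p i) (p (i + 1)) α ∧ Rt E (p i) (p (i + 1)) β) → bd (p L) E = [] →
  (∀ i ≤ L, ∀ v < n, ∀ w < n, r i v = r i w ↔ ∀ j, i ≤ j → j ≤ L → p j v = p j w) →
  CA n E ((List.range (L + 1)).map r) (4 * L ^ 2 * β * (α + 1))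

/-- **T3a**: the next partition; input `(n, E, p)`. -/
def PART : Prop := ∃ f c g, Box (fun b (x : ℕ × List Edge × Arr ℕ) => EP b x.1 x.2.1)
  (fun x => x.1 + x.2.1.length) (fun _ q x (p' : Arr ℕ) => (∀ v < x.1, p'.get v < x.1) ∧
    Mix x.2.1 x.2.2.get p'.get q ∧ Rt x.2.1 x.2.2.get p'.get q) f c g

/-- Representatives of the common refinement of two labellings. -/
def CANON : Prop := ∃ f : ℕ × Arr ℕ × Arr ℕ → M (Arr ℕ), Impl f ∧ ∀ (c : Cx) (n : ℕ) (x y : Arr ℕ),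
  (∀ v < n, x.get v < n ∧ y.get v < n) → (n + 1) ^ 2 ≤ c.B → Tri c (f (n, x, y)) fun r t =>
    (∀ v < n, r.get v < n ∧ x.get (r.get v) = x.get v ∧ y.get (r.get v) = y.get v ∧
      ∀ w < n, x.get v = x.get w → y.get v = y.get w → r.get v = r.get w) ∧ t ≤ 4 * n

/-- **T2**: exact minimum cuts; input `(n, K, E, d, Y)`. -/
def CUT : Prop := ∃ f c g, Box
  (fun b (x : ℕ × ℕ × List Edge × Arr ℕ × Arr Bool) => EP b x.1 x.2.2.1 ∧ x.2.1 ≤ 2 ^ b ∧
    ∑ v ∈ range x.1, x.2.2.2.1.get v ≤ 2 ^ b) (fun x => x.1 + x.2.2.1.length)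
  (fun _ _ x (C : Arr Bool) => (∀ v < x.1, C.get v = true → x.2.2.2.2.get v = true) ∧
    ∀ X : ℕ → Prop, (∀ v < x.1, X v → x.2.2.2.2.get v = true) →
      x.2.1 * cut x.2.2.1 (fun v => C.get v = true) - wt x.1 x.2.2.2.1.get (fun v => C.get v = true)
        ≤ x.2.1 * cut x.2.2.1 X - wt x.1 x.2.2.2.1.get X) f c g

/-- The loss in the peeling. -/
def lam (b : ℕ) : ℕ := 2 ^ 30 * (b + 2) ^ 3

/-- The result of the peeling: `R` is removed, `st` are the pieces with a balanced cut. -/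
structure PeelRes (n : ℕ) (E : List Edge) (pc d : ℕ → ℕ) (K l q : ℝ) (R st : ℕ → Prop) : Prop where
  p1 : ∀ a < n, K * cut (pcE pc a E) R ≤ l * wt n d fun v => pc v = a ∧ R v
  p2 : ∀ a < n, 5 * wt n d (fun v => pc v = a ∧ R v) ≤ 3 * wt n d fun v => pc v = a
  p3 : ∀ a < n, st a → wt n d (fun v => pc v = a) ≤ l * wt n d fun v => pc v = a ∧ R v
  p4 : ∀ S : ℕ → Prop, ∃ σ : ℕ → Prop,
    wt n d (fun v => ¬ st (pc v) ∧ ¬ R v ∧ (S v ↔ σ (pc v))) ≤ q * K * cut E S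

/-- **T1**: the peeling; input `(n, K, E, pc, d)`. -/
def PEEL : Prop := ∃ f c g, Box
  (fun b (x : ℕ × ℕ × List Edge × Arr ℕ × Arr ℕ) => EP b x.1 x.2.2.1 ∧ 1 ≤ x.2.1 ∧ x.2.1 ≤ 2 ^ b ∧
    Ins x.2.2.2.1.get x.2.2.1 ∧ (∀ v < x.1, x.2.2.2.1.get v < x.1) ∧
    ∑ v ∈ range x.1, x.2.2.2.2.get v ≤ 2 ^ b) (fun x => x.1 + x.2.2.1.length)
  (fun b q x (r : Arr Bool × Arr Bool) => PeelRes x.1 x.2.2.1 x.2.2.2.1.get x.2.2.2.2.get x.2.1
    (lam b) q (fun v => r.1.get v = true) fun a => r.2.get a = true) f c g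

/-- The sampler with its parameters fixed. -/
def SAM : Prop := ∃ (f : ℕ → List Edge → M (List (Arr ℕ))) (c : ℕ) (g : ℕ → ℕ),
  Impl (fun p : ℕ × List Edge => f p.1 p.2) ∧ (∀ a, Sub fun N => g (a * Nat.size N + a)) ∧
  Monotone g ∧ ∀ B b n E, EP b n E → 2 ^ (c * (b + 1)) ≤ B →
    (Tri ⟨B, true⟩ (f b E) fun cs t => cs.length + 1 ≤ 2 ^ 16 * (b + 2) ^ 2 ∧
      (∀ C ∈ cs, ∀ v < n, P305F.relab C v < n) ∧ t ≤ (E.length + 1) * g b) ∧
    ∀ S, wp B (f b E) (fun cs _ => TN 1 (ind S) (P305F.hier cs) E) 0 ≤ g b * cut E S + 1 / 2 ^ b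

/-- The lighter side of the class `l` in the piece `a`. -/
def side (n : ℕ) (pc d lab : ℕ → ℕ) (a l v : ℕ) : Prop :=
  pc v = a ∧ (2 * wt n d (fun w => pc w = a ∧ lab w = l) ≤ wt n d (fun w => pc w = a) ↔ lab v = l)

/-- `X` contains the sparse sides of the classes of `lab` in the piece `a`. -/
def Sw (n : ℕ) (E : List Edge) (pc d : ℕ → ℕ) (K : ℝ) (a : ℕ) (X : ℕ → Prop) (lab : ℕ → ℕ) : Prop :=
  ∀ l, (∃ w < n, pc w = a ∧ lab w = l) →
    K * cut (pcE pc a E) (fun v => lab v = l) ≤ wt n d (side n pc d lab a l) →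
    ∀ v < n, side n pc d lab a l v → X v

/-- The same on all levels of a hierarchy. -/
def Full (n : ℕ) (E : List Edge) (pc d : ℕ → ℕ) (K : ℝ) (a : ℕ) (X : ℕ → Prop)
    (cs : List (ℕ → ℕ)) : Prop := ∀ i ≤ cs.length, Sw n E pc d K a X (labAll (cs.take i))

/-- The largest surplus of a cut of the piece `a`. -/
noncomputable def Psi (n : ℕ) (E : List Edge) (pc : ℕ → ℕ) (a : ℕ) (φ : ℝ) (d : ℕ → ℕ) : ℝ :=
  ⨆ S : ℕ → Prop, (φ * min (wt n d fun v => pc v = a ∧ S v) (wt n d fun v => pc v = a ∧ ¬ S v) -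
    cut (pcE pc a E) S)

/-- **T1a**: one round. -/
def RND : Prop := ∀ (n : ℕ) (E : List Edge) (pc d : ℕ → ℕ) (φ η : ℝ), Ends n E → Ins pc E →
  0 < η → η ≤ φ → ∃ S : ℕ → Prop, ∀ a,
    η * cut (pcE pc a E) S ≤ φ * Psi n E pc a (φ + η) d ∧
    ∀ (S' X : ℕ → Prop) (cs : List (ℕ → ℕ)) (d' : ℕ → ℕ) (D G K : ℝ),
      (∀ v, pc v = a → (S' v ↔ S v)) → (∀ v < n, (X v → d' v = 0) ∧ (¬ X v → d' v = d v)) →
      Full n E pc d K a X cs → 0 ≤ K → 14 ≤ G → 16 * φ ≤ G * η →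
      G * wt n d (fun v => pc v = a ∧ X v) ≤ D → (G - 1) * D ≤ G * wt n d (fun v => pc v = a) →
      Psi n E pc a (φ - η) d' ≤ 2 * φ * K * TN 1 (ind S') cs (pcE pc a E)

/-- **T1a**: the beginning, the end, and sums over the pieces. -/
def PSI : Prop := ∀ (n : ℕ) (E : List Edge) (pc d : ℕ → ℕ) (φ : ℝ), Ends n E → Ins pc E →
  (∀ v < n, pc v < n) → 0 < φ →
  (∀ a, 0 ≤ Psi n E pc a φ d ∧ Psi n E pc a φ d ≤ φ * wt n d fun v => pc v = a) ∧
  (∀ st : ℕ → Prop, (∀ a < n, ¬ st a → Psi n E pc a φ d ≤ φ / 2) → ∀ S : ℕ → Prop,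
    ∃ σ : ℕ → Prop, wt n d (fun v => ¬ st (pc v) ∧ (S v ↔ σ (pc v))) ≤ 2 / φ * cut E S) ∧
  (∀ S, ∑ a ∈ range n, cut (pcE pc a E) S = cut E S) ∧
  (∀ ψ cs, ∑ a ∈ range n, TN 1 ψ cs (pcE pc a E) = TN 1 ψ cs E) ∧
  ∀ T, ∑ a ∈ range n, wt n d (fun v => pc v = a ∧ T v) = wt n d T

/-- What one round of the peeling does to the counters `ac` of the pieces. -/
structure RoundRes (n : ℕ) (E : List Edge) (pc d D ac ac' : ℕ → ℕ) (K G : ℕ) (X : ℕ → Prop)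
    (cs : List (ℕ → ℕ)) (a : ℕ) : Prop where
  r1 : K * cut (pcE pc a E) X + ac a ≤ ac' a
  r2 : wt n d (fun v => pc v = a ∧ X v) + ac a ≤ ac' a
  r3 : ac' a ≤ ac a + 2 * (cs.length + 1) * wt n d fun v => pc v = a ∧ X v
  r4 : ac' a = ac a ∨ 2 * G * ac' a ≤ 2 * D a + G * wt n d fun v => pc v = a
  r5 : G * ac' a < D a → Full n E pc d K a X cs

/-- **T1b**: the program of one round; input `((n, K, G), E, pc, D, cs)` and the state
`(removed, d, ac)`. -/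
def ROUND : Prop := ∃ f : ((ℕ × ℕ × ℕ) × List Edge × Arr ℕ × Arr ℕ × List (Arr ℕ)) ×
    Arr Bool × Arr ℕ × Arr ℕ → M (Arr Bool × Arr ℕ × Arr ℕ), Impl f ∧
  ∀ (c : Cx) (b n K G : ℕ) (E : List Edge) (pc D : Arr ℕ) (cs : List (Arr ℕ)) (rm : Arr Bool)
    (d ac : Arr ℕ), EP b n E → Ins pc.get E → (∀ v < n, pc.get v < n) →
    (∀ C ∈ cs, ∀ v < n, P305F.relab C v < n) → ∑ v ∈ range n, d.get v ≤ 2 ^ b →
    (∀ a < n, D.get a ≤ 2 ^ b ∧ ac.get a ≤ 2 ^ (b + 1)) → 1 ≤ G → 2 ^ (2 * b + 3) ≤ c.B →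
    Tri c (f (((n, K, G), E, pc, D, cs), rm, d, ac)) fun s t => (∃ X : ℕ → Prop,
      (∀ v < n, (s.1.get v = true ↔ rm.get v = true ∨ X v) ∧ (X v → s.2.1.get v = 0) ∧
        (¬ X v → s.2.1.get v = d.get v)) ∧
      ∀ a < n, RoundRes n E pc.get d.get D.get ac.get s.2.2.get K G X (P305F.hier cs) a) ∧
      t ≤ 20 * (cs.length + 1) * (n + E.length + 1)

end Vale.Agent.P305T
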